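import Vale.Agent.N080B.Main

/-!
Infinity-harmonic functions are `C^{1,β}` up to a `C^{1,γ}` part of the boundary on which they are
constant, in every dimension.
-/

namespace Vale.Agent.Results.P080.A0Boundary

open Metric Set Vale.Agent.N080B

theorem result (d : ℕ) :
    ∀ γ : ℝ, 0 < γ → ∃ β : ℝ, 0 < β ∧ ∃ C : ℝ, 0 < C ∧
      ∀ (Ω : Set (EuclideanSpace ℝ (Fin d))) (u : EuclideanSpace ℝ (Fin d) → ℝ)
        (x₀ : EuclideanSpace ℝ (Fin d)) (R M a : ℝ), IsOpen Ω → 0 < R →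
        InfHarm u (Ω ∩ ball x₀ R) → ContinuousOn u (closure Ω ∩ ball x₀ R) →
        (∀ y ∈ frontier Ω ∩ ball x₀ R, u y = a) → (∀ y ∈ Ω ∩ ball x₀ R, |u y - a| ≤ M) →
        -- (1) expansion at one boundary point, sign of the normal derivative
        (∀ ν, FlatAt Ω x₀ ν γ R → ∃ s : ℝ, |s| ≤ C * (M / R) ∧
          (∀ y ∈ Ω ∩ ball x₀ R, |u y - a - s * inner ℝ ν (y - x₀)| ≤
            C * (M / R) * ‖y - x₀‖ * (‖y - x₀‖ / R) ^ β) ∧
          ((∀ y ∈ Ω ∩ ball x₀ R, a < u y) → 0 < s)) ∧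
        -- (2) the gradient is Hölder continuous up to the boundary
        ((∀ c ∈ frontier Ω ∩ ball x₀ R, ∃ ν, FlatAt Ω c ν γ R) →
          ∀ x ∈ Ω ∩ ball x₀ (R / 2), DifferentiableAt ℝ u x ∧ ‖gradient u x‖ ≤ C * (M / R) ∧
            ∀ y ∈ Ω ∩ ball x₀ (R / 2),
              ‖gradient u x - gradient u y‖ ≤ C * (M / R) * (‖x - y‖ / R) ^ β) :=
  fun _ hγ => boundary hγ

end Vale.Agent.Results.P080.A0Boundary
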