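import Vale.Agent.N080.Main

/-!
Gradient regularity, in every dimension, for the inhomogeneous infinity Laplace equation with a
bounded right-hand side and for Aronsson type equations with Hölder coefficients.
-/

namespace Vale.Agent.Results.P080.A0Inhomogeneous

open Metric

section

variable {E : Type*} [NormedAddCommGroup E] [InnerProductSpace ℝ E] [CompleteSpace E]

/-- `u` is continuous on `Ω` and a viscosity solution of
`⟨D²u A(x) ∇u, A(x) ∇u⟩ = F(x, u, ∇u)`, tested with all `C²` functions. -/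
structure Solves (A : E → E →L[ℝ] E) (F : E → ℝ → E → ℝ) (u : E → ℝ) (Ω : Set E) : Prop where
  cont : ContinuousOn u Ω
  max : ∀ z ∈ Ω, ∀ φ : E → ℝ, ContDiff ℝ 2 φ → IsLocalMax (fun x => u x - φ x) z →
    F z (u z) (gradient φ z) ≤
      fderiv ℝ (fderiv ℝ φ) z (A z (gradient φ z)) (A z (gradient φ z))
  min : ∀ z ∈ Ω, ∀ φ : E → ℝ, ContDiff ℝ 2 φ → IsLocalMin (fun x => u x - φ x) z →
    fderiv ℝ (fderiv ℝ φ) z (A z (gradient φ z)) (A z (gradient φ z)) ≤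
      F z (u z) (gradient φ z)

theorem Solves.sub {A : E → E →L[ℝ] E} {F : E → ℝ → E → ℝ} {u : E → ℝ} {Ω : Set E} {b : ℝ → ℝ}
    (h : Solves A F u Ω) (hb : ∀ x ∈ Ω, ∀ p, |F x (u x) p| ≤ b ‖p‖) :
    N080.Sub A b u Ω ∧ N080.Sub A b (fun x => -u x) Ω := by
  refine ⟨⟨h.1, fun z hz φ hφ hm => ?_⟩, ⟨h.1.neg, fun z hz φ hφ hm => ?_⟩⟩
  · exact (abs_le.1 (hb z hz _)).1.trans (h.max z hz φ hφ hm)
  · have h0 : (fun x => u x - -φ x) = fun x => -(-u x - φ x) := by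
      funext x; ring
    have h1 := (h.min z hz (fun x => -φ x) hφ.neg (by rw [h0]; exact hm.neg)).trans
      (abs_le.1 (hb z hz _)).2
    have h2 : fderiv ℝ (fun x => -φ x) = fun x => -fderiv ℝ φ x := by
      funext x
      exact fderiv_fun_neg
    have h3 : gradient (fun x => -φ x) z = -gradient φ z := by
      unfold gradient
      rw [h2]
      simp only [map_neg]
    have h4 : fderiv ℝ (fun x => -fderiv ℝ φ x) z = -fderiv ℝ (fderiv ℝ φ) z := fderiv_fun_neg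
    rw [h3, h2, h4] at h1
    simp only [neg_apply, map_neg, neg_neg, norm_neg] at h1
    linarith

end

/-- For `E = EuclideanSpace ℝ (Fin d)` the constants `α`, `C`, `β` depend on `d` (and `γ`) only. -/
theorem result (E : Type) [NormedAddCommGroup E] [InnerProductSpace ℝ E] [CompleteSpace E]
    [FiniteDimensional ℝ E] :
    -- (1) bounded right-hand side
    (∃ α : ℝ, 0 < α ∧ α < 1 ∧ ∃ C : ℝ, 0 < C ∧
      ∀ (F : E → ℝ → E → ℝ) (K : ℝ) (Ω : Set E) (u : E → ℝ) (M ρ : ℝ) (x y : E),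
        (∀ z t p, |F z t p| ≤ K) → Solves (fun _ => 1) F u Ω →
        (∀ a ∈ Ω, ∀ b ∈ Ω, u a - u b ≤ M) → 0 < ρ → ball x ρ ⊆ Ω → ball y ρ ⊆ Ω →
          DifferentiableAt ℝ u x ∧
          ‖gradient u x‖ ≤ C * (M / ρ + (K * ρ) ^ (1 / 3 : ℝ)) ∧
          ‖gradient u x - gradient u y‖ ≤
            C * (M / ρ + (K * ρ) ^ (1 / 3 : ℝ)) * (‖x - y‖ / ρ) ^ α) ∧
    -- (2) Hölder coefficients, right-hand side of quartic growth in the gradient
    ∀ γ : ℝ, 0 < γ → γ ≤ 1 → ∃ β : ℝ, 0 < β ∧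
      ∀ (A : E → E →L[ℝ] E) (F : E → ℝ → E → ℝ) (H K : ℝ) (Ω : Set E) (u : E → ℝ),
        IsOpen Ω → Solves A F u Ω →
        (∀ x ∈ Ω, ∀ v w, inner ℝ (A x v) w = inner ℝ v (A x w)) →
        (∀ x ∈ Ω, ∀ v ≠ 0, 0 < inner ℝ (A x v) v) →
        (∀ x ∈ Ω, ∀ y ∈ Ω, ‖A x - A y‖ ≤ H * ‖x - y‖ ^ γ) →
        (∀ x t p, |F x t p| ≤ K * (1 + ‖p‖ ^ 4)) →
        ContDiffOn ℝ 1 u Ω ∧ ∀ z ∈ Ω, ∃ ρ > 0, ∃ L : ℝ, ∀ x ∈ ball z ρ, ∀ y ∈ ball z ρ,
          ‖gradient u x - gradient u y‖ ≤ L * ‖x - y‖ ^ β := by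
  obtain ⟨α, h0, h1, C, hC, hE⟩ := P080.H510.coneEstimate (E := E)
  obtain ⟨D, hD, hq⟩ := N080.quant h0 h1 hC hE
  have two : ∀ (F : E → ℝ → E → ℝ) (K : ℝ)
      (Ω : Set E) (u : E → ℝ) (M ρ : ℝ),
      (∀ x t p, |F x t p| ≤ K) → Solves (fun _ => 1) F u Ω →
      (∀ a ∈ Ω, ∀ b ∈ Ω, u a - u b ≤ M) → 0 < ρ →
      ∀ x y, ball x ρ ⊆ Ω → ball y ρ ⊆ Ω →
        DifferentiableAt ℝ u x ∧
        ‖gradient u x‖ ≤ D * (M / ρ + (K * ρ) ^ (1 / 3 : ℝ)) ∧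
        ‖gradient u x - gradient u y‖ ≤
          D * (M / ρ + (K * ρ) ^ (1 / 3 : ℝ)) * (‖x - y‖ / ρ) ^ N080.expo α 1 := by
    intro F K Ω u M ρ hF hu hM hρ x y hx hy
    have hK : 0 ≤ K := (abs_nonneg _).trans (hF 0 0 0)
    have hM0 : 0 ≤ M := by
      have := hM x (hx (mem_ball_self hρ)) x (hx (mem_ball_self hρ))
      linarith
    obtain ⟨k1, k2⟩ := hu.sub (b := fun _ => K) fun x _ p => hF x _ p
    have hκ : 0 ≤ (K * ρ) ^ (1 / 3 : ℝ) := by positivity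
    have hMρ : 0 ≤ M / ρ := by positivity
    have h3 : ((K * ρ) ^ (1 / 3 : ℝ)) ^ 3 = K * ρ := by
      rw [← Real.rpow_natCast, ← Real.rpow_mul (by positivity)]
      norm_num
    obtain ⟨a1, a2⟩ := hq Ω u K M ρ (M / ρ + (K * ρ) ^ (1 / 3 : ℝ)) hK hρ (by positivity)
      (by
        have : M / ρ * ρ = M := by field_simp
        nlinarith)
      (by
        conv_lhs => rw [← h3]
        exact pow_le_pow_left₀ hκ (by linarith) 3) k1 k2 hM
    exact ⟨(a1 x hx).1, (a1 x hx).2, a2 x y hx hy⟩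
  refine ⟨⟨N080.expo α 1, N080.expo_pos h0 one_pos, N080.expo_lt h0 h1 one_pos, D, hD,
      fun F K Ω u M ρ x y hF hu hM hρ hx hy => two F K Ω u M ρ hF hu hM hρ x y hx hy⟩,
    fun γ hγ hγ1 => ⟨N080.expo α γ, N080.expo_pos h0 hγ, ?_⟩⟩
  · intro A F H K Ω u hΩ hu hs hp hA hF
    have hK : 0 ≤ K := by simpa using (abs_nonneg _).trans (hF 0 0 0)
    obtain ⟨k1, k2⟩ := hu.sub (b := fun s => K * (1 + s ^ 4)) fun x _ p => hF x _ p
    have key := fun x₁ (hx₁ : x₁ ∈ Ω) => N080.general h0 h1 hC hE hγ hγ1 hΩ hK (abs_nonneg H)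
      hs hp (fun x hx y hy => (hA x hx y hy).trans
        (mul_le_mul_of_nonneg_right (le_abs_self H) (by positivity))) k1 k2 hx₁
    refine ⟨fun x hx => ?_, fun x hx => ?_⟩
    · obtain ⟨ρ, hρ, C', b1, b2⟩ := key x hx
      have := P080.Zy.contDiffOn_of_gradient_holder (C := C') (R := 1) isOpen_ball
        (N080.expo_pos h0 hγ) b1 (by simpa using b2)
      exact (this.contDiffAt (ball_mem_nhds x hρ)).contDiffWithinAt
    · obtain ⟨ρ, hρ, C', -, b2⟩ := key x hx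
      exact ⟨ρ, hρ, C', b2⟩

end Vale.Agent.Results.P080.A0Inhomogeneous
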